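import Vale.Agent.P207.SPH.Geo
import Vale.Agent.P207.SPH.H752.Ky
import Vale.Agent.P207.H582.Fin
import Vale.Agent.P207.H832.N4.UR
import Vale.Agent.P207.Q.H129.JacFr
import Vale.Agent.P207.C1.Psi

/-!
# P207, project SPH, row G1: the system of a negatively curved metric, up to the constancy of the
invariant functions
-/

open scoped Manifold ContDiff ENNReal Topology Matrix
open Bundle MeasureTheory Set Filter

set_option maxSynthPendingDepth 3
set_option linter.unusedSectionVars false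

noncomputable section

namespace Vale.Agent.P207.SPH.H128

open Vale.Agent.P255 (RMetric)
open Vale.Agent.P207 Vale.Agent.P207.Q Vale.Agent.P207.Q.H130 Vale.Agent.P207.Q.H892

theorem sg_conj {m k : ℕ} {O : Mt m} (h1 : Oᵀ * O = 1) (h2 : O * Oᵀ = 1) (S : Mt m) :
    sg k (Oᵀ * S * O) = sg k S := by
  unfold sg
  congr 1
  ext x
  constructor
  · rintro ⟨W, hW, rfl⟩
    refine ⟨O * W, ?_, ?_⟩
    · rw [Matrix.transpose_mul, Matrix.mul_assoc, ← Matrix.mul_assoc Oᵀ, h1, Matrix.one_mul, hW]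
    · congr 1
      simp only [Matrix.transpose_mul, Matrix.mul_assoc]
  · rintro ⟨W, hW, rfl⟩
    refine ⟨Oᵀ * W, ?_, ?_⟩
    · rw [Matrix.transpose_mul, Matrix.transpose_transpose, Matrix.mul_assoc,
        ← Matrix.mul_assoc O, h2, Matrix.one_mul, hW]
    · congr 1
      calc Wᵀ * S * W = Wᵀ * (O * Oᵀ) * S * (O * Oᵀ) * W := by
            rw [h2, Matrix.mul_one, Matrix.mul_one]
        _ = _ := by simp only [Matrix.transpose_mul, Matrix.transpose_transpose, Matrix.mul_assoc]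

variable {m : ℕ} {M : Type} [TopologicalSpace M] [ChartedSpace (EV (m + 1)) M]
  [IsManifold 𝓘(ℝ, EV (m + 1)) ∞ M] [CompactSpace M] [T2Space M] {g : RMetric (EV (m + 1)) M}

/-- the system of an unstable Riccati tensor -/
def sysOf {Φ : ℝ → Fr g → Fr g} (hΦ : IsHorFlow g (Pi.single 0 1) Φ)
    (hcont : Continuous fun q : ℝ × Fr g => Φ q.1 q.2) {lam B Lam : ℝ}
    {U : Fr g → Matrix (Fin m) (Fin m) ℝ} (hU : IsUR Φ lam B U) (hUc : Continuous U)
    (hhi : ∀ f x, x ⬝ᵥ (U f *ᵥ x) ≤ Lam * (x ⬝ᵥ x)) : Sys m (Fr g) where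
  Φ := Φ
  zero := hΦ.zero
  add s t f := (hΦ.add s t f).symm
  cont := hcont
  U := U
  V f := U (H582.flipF f)
  K f := Km g f
  cU := hUc
  cV := hUc.comp H582.continuous_flipF
  cK := H832.N4.continuous_KmM
  sU := hU.symm hΦ
  sV f := hU.symm hΦ _
  a := lam
  b := Lam
  a_pos := hU.pos
  loU := hU.lo
  loV f := hU.lo _
  hiU := hhi
  hiV f := hhi _
  dU f t i j := (hU.ric f t i j).congr_deriv (by rw [Matrix.sub_apply])
  dV f t i j := (H582.ric_flip hΦ hU f t i j).congr_deriv (by rw [Matrix.sub_apply])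

/-- **G1**, if the continuous invariant functions are constant -/
theorem sysGeo_of [ConnectedSpace M] [MeasurableSpace M] [BorelSpace M] [Nonempty (Fr g)]
    (hm : 2 ≤ m)
    (hN : NegCurvature g) {φ : ℝ → UT g → UT g} {μ : Measure M} {ν : Measure (UT g)}
    (hφ : IsGeoFlow g φ) (hμ : IsRiemVol g μ) (hν : IsLiouville g μ ν)
    (hconst : ∀ F : C(UT g, ℝ), (∀ T (f : Fr g), F (((horFlows g).Φ 0 T f).ut 0) = F (f.ut 0)) →
      ∃ c, ∀ v, F v = c) :
  CompactSpace (Fr g) ∧ ∃ (D : Sys m (Fr g)) (mP : Measure (Fr g)),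
    IsHorFlow g (Pi.single 0 1) D.Φ ∧ (∀ f, D.K f = Km g f) ∧ (∀ t f, φ t (f.ut 0) = (D.Φ t f).ut 0) ∧
    (∀ p : UT g, ∃ f : Fr g, f.ut 0 = p) ∧
    IsProbabilityMeasure mP ∧ mP.IsOpenPosMeasure ∧ (∀ t, MeasurePreserving (D.Φ t) mP mP) ∧
    MeasurePreserving (fun f : Fr g => f.ut 0) mP ν ∧
    ∫ f, (D.V f).trace ∂mP = ∫ f, (D.U f).trace ∂mP ∧
    (∀ k ≤ m, (∀ t f, sg k (D.S (D.Φ t f)) = sg k (D.S f)) → ∃ c, ∀ f, sg k (D.S f) = c) ∧
    (ksEntropy ν (φ 1) ≤ ENNReal.ofReal (∫ f, (D.U f).trace ∂mP)) ∧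
    (ENNReal.ofReal (∫ f, (D.U f).trace ∂mP) ≤ topEntropy (φ 1)) := by
  obtain ⟨hsc, -, hmp, mP, hP, hprob, hop⟩ := H582.exists_setting hφ hμ hν
  obtain ⟨lam, Lam, U, hUc, hU, hhi⟩ := H832.N4.exists_UR hN
  have hΦ := (horFlows g).hor 0
  obtain ⟨t, ht, -⟩ := hU.exists_t hΦ (fun i => hUc.matrix_elem i i) hφ
  have hLam : 0 < max Lam 1 := lt_max_of_lt_right one_pos
  obtain ⟨hJu, c₀, hc₀, hJl⟩ := H129.jac_upper_lower hΦ hφ hU.pos hLam
    (fun f i j r => hU.ric f r i j) (fun f => hU.symm hΦ f) hU.lo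
    (fun f x => (hhi f x).trans (mul_le_mul_of_nonneg_right (le_max_left _ _)
      (Finset.sum_nonneg fun i _ => mul_self_nonneg _))) ht
  have hint : ∫ f, (U f).trace ∂mP = ∫ p, t p ∂ν := by
    rw [← hP.ut.map_eq, integral_map hP.ut.measurable.aemeasurable
      t.continuous.aestronglyMeasurable]
    exact integral_congr_ae (ae_of_all _ fun f => (ht f).symm)
  have hflip : ∫ f, (U (H582.flipF f)).trace ∂mP = ∫ f, (U f).trace ∂mP := by
    have h1 := (hP.rot (H582.flipO m)).integral_comp' (f := (MeasurableEquiv.mk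
      ⟨H582.flipF, H582.flipF, H582.flipF_flipF, H582.flipF_flipF⟩ H582.continuous_flipF.measurable
        H582.continuous_flipF.measurable : Fr g ≃ᵐ Fr g)) (g := fun f => (U f).trace)
    exact h1
  refine ⟨inferInstance, sysOf hΦ ((horFlows g).cont 0) hU hUc hhi, mP, hΦ, fun f => rfl,
    fun t f => (hΦ.ut_eq hφ t f).symm, fun p => H892.exists_frame_ut p, hprob, hop,
    fun t => (horFlows g).mp_zero hP hφ hmp t, hP.ut, hflip, ?_, ?_, ?_⟩
  · intro k hk hinv
    set D := sysOf hΦ ((horFlows g).cont 0) hU hUc hhi with hD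
    have hcont : Continuous fun f => sg k (D.S f) :=
      (H752.kyStmt m k hk).1.comp (D.cU.add D.cV)
    obtain ⟨F, hF⟩ := exists_desc (g := g) (⟨fun f => sg k (D.S f), hcont⟩ : C(Fr g, ℝ))
      (fun A hA f => by
        have h1 : D.S (Fr.rot A f) = (low A)ᵀ * D.S f * low A := by
          change U (Fr.rot A f) + U (H582.flipF (Fr.rot A f)) = (low A)ᵀ * (U f + U (H582.flipF f)) * low A
          rw [H582.flipF_rot hA, hU.rot hΦ hA, hU.rot hΦ hA, Matrix.mul_add, Matrix.add_mul]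
        change sg k (D.S (Fr.rot A f)) = sg k (D.S f)
        rw [h1]
        exact sg_conj (low_orth hA) (low_orth' hA) _)
    obtain ⟨c, hc⟩ := hconst F (fun T f => by
      rw [hF, hF]
      exact hinv T f)
    exact ⟨c, fun f => by rw [← hc (f.ut 0)]; exact (hF f).symm⟩
  · change ksEntropy ν (φ 1) ≤ ENNReal.ofReal (∫ f, (U f).trace ∂mP)
    rw [hint]
    exact Q.ksEntropy_liouville_le_of_jac (by omega) hφ hμ hν (npc_of_neg hN) t.continuous hJu
  · change ENNReal.ofReal (∫ f, (U f).trace ∂mP) ≤ topEntropy (φ 1)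
    rw [hint]
    by_cases h : topEntropy (φ 1) = ⊤
    · rw [h]; exact le_top
    · have hG := growthLE_top (by omega : 2 ≤ m + 1) hφ hN h hμ hν
      exact ENNReal.ofReal_le_of_le_toReal (Area.integral_le_of_growth (by omega) hφ hμ hν
        (npc_of_neg hN) hG t.continuous hc₀ hJl)

end Vale.Agent.P207.SPH.H128
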