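import Vale.Agent.P207.N4.Geo.MDat
import Vale.Agent.P207.N4.Geo.OverA
import Vale.Agent.P207.N4.H747.USysI
import Vale.Agent.P207.N4.H76.In3A
import Vale.Agent.P207.N4.H863.HoldA

/-!
# P207, project SPH: continuous invariant functions of the geodesic flow are constant
-/

open scoped Manifold ContDiff ENNReal Topology Matrix
open Bundle MeasureTheory Set Filter

set_option maxSynthPendingDepth 3
set_option linter.unusedSectionVars false

noncomputable section

namespace Vale.Agent.P207.SPH.H128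

open Vale.Agent.P255 (RMetric)
open Vale.Agent.P207 Vale.Agent.P207.Q Vale.Agent.P207.N4

/-- a continuous function on the unit tangent bundle which is invariant under the geodesic flow is
constant -/
theorem const_ut [Dim] {M : Type} [TopologicalSpace M] [ChartedSpace (EV (Dim.m + 1)) M]
    [IsManifold 𝓘(ℝ, EV (Dim.m + 1)) ∞ M] [CompactSpace M] [T2Space M] [ConnectedSpace M]
    {g : RMetric (EV (Dim.m + 1)) M} [Nonempty (Fr g)] (hN : NegCurvature g)
    {φ : ℝ → UT g → UT g} (hφ : IsGeoFlow g φ) (F : C(UT g, ℝ))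
    (hF : ∀ T (f : Fr g), F (((horFlows g).Φ 0 T f).ut 0) = F (f.ut 0)) :
    ∃ c, ∀ v, F v = c := by
  obtain ⟨D⟩ := N4.exists_MDat hN hφ
  obtain ⟨f⟩ := ‹Nonempty (Fr g)›
  let Dm : N4.MDat g (N4.H747.fl g) := D
  obtain ⟨ρ, hT⟩ := N4.H747.exists_tubeR (g := g)
  obtain ⟨ε, δ, gs, hg⟩ := N4.H747.exists_slope_fr Dm hT
  obtain ⟨θ, hθ, hold⟩ := N4.H863.hold_dirS hN f.pt Dm hT hg
  obtain ⟨r₀, t₁, χ, hc⟩ := (N4.H76.in3A hN f.pt Dm hT hg hθ hold).exists_cst
  exact (N4.over_leaf hc (N3.H465.toMt (sys g (npc_of_neg hN)) f.pt 0)).const_ut F hF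

/-- the same for all `m ≥ 2` -/
theorem const_ut' {m : ℕ} (h2 : 2 ≤ m) {M : Type} [TopologicalSpace M]
    [ChartedSpace (EV (m + 1)) M]
    [IsManifold 𝓘(ℝ, EV (m + 1)) ∞ M] [CompactSpace M] [T2Space M] [ConnectedSpace M]
    {g : RMetric (EV (m + 1)) M} [Nonempty (Fr g)] (hN : NegCurvature g)
    {φ : ℝ → UT g → UT g} (hφ : IsGeoFlow g φ) (F : C(UT g, ℝ))
    (hF : ∀ T (f : Fr g), F (((horFlows g).Φ 0 T f).ut 0) = F (f.ut 0)) :
    ∃ c, ∀ v, F v = c :=
  @const_ut (Dim.mk m h2) M _ _ _ _ _ _ g _ hN φ hφ F hF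

end Vale.Agent.P207.SPH.H128
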