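import Vale.Agent.P207.SPH.H128.Sys
import Vale.Agent.P207.SPH.H128.Const

/-!
# P207, project SPH, row G1
-/

open scoped Manifold ContDiff ENNReal Topology Matrix
open Bundle MeasureTheory Set Filter

set_option maxSynthPendingDepth 3

noncomputable section

namespace Vale.Agent.P207.SPH.H128

/-- **G1** -/
theorem sysGeo : SysGeoStmt := by
  intro m h2 M _ _ _ _ _ _ _ _ g hN φ μ ν hφ hμ hν
  obtain ⟨-, hne, -⟩ := H582.exists_setting hφ hμ hν
  exact sysGeo_of h2 hN hφ hμ hν (fun F hF => const_ut' h2 hN hφ F hF)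

end Vale.Agent.P207.SPH.H128
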