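import Vale.Agent.P207.SPH.Defs

/-!
# P207, project SPH, row R15: the exponents (from R5, R6, R7, R8, R9)
-/

open Matrix MeasureTheory Set Filter Topology

noncomputable section

namespace Vale.Agent.P207.SPH.H128

open Vale.Agent.P207.SPH

/-! ### Fekete's lemma for a real parameter -/

theorem fekete {a : ℝ → ℝ} (hsub : ∀ s t, a (s + t) ≤ a s + a t) {C : ℝ}
    (hC : ∀ r, 0 ≤ r → r ≤ 1 → a r ≤ C) {c T₀ : ℝ} (hc : ∀ T, T₀ ≤ T → c ≤ a T) :
    ∃ l, Tendsto (fun T : ℝ => a T / T) atTop (𝓝 l) ∧ ∀ T, 0 < T → T * l ≤ a T := by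
  have hj : ∀ (j : ℕ) (T : ℝ), a (((j : ℝ) + 1) * T) ≤ ((j : ℝ) + 1) * a T := by
    intro j T
    induction j with
    | zero => simp
    | succ j ih =>
      have e : (((j + 1 : ℕ) : ℝ) + 1) * T = ((j : ℝ) + 1) * T + T := by push_cast; ring
      have := hsub (((j : ℝ) + 1) * T) T
      rw [e]
      push_cast
      linarith
  have hlow : ∀ T, 0 < T → -|c| ≤ a T := by
    intro T hT
    obtain ⟨j, hjT⟩ := exists_nat_gt (T₀ / T)
    have h1 : T₀ ≤ ((j : ℝ) + 1) * T := by
      rw [div_lt_iff₀ hT] at hjT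
      nlinarith
    have h2 := hc _ h1
    have h3 := hj j T
    have h4 : -|c| ≤ c := neg_abs_le c
    have hj1 : (1 : ℝ) ≤ (j : ℝ) + 1 := by
      have : (0 : ℝ) ≤ j := Nat.cast_nonneg j
      linarith
    by_contra hcon
    push Not at hcon
    have h0 : 0 ≤ |c| := abs_nonneg c
    nlinarith
  have hS : Subadditive fun n : ℕ => a n := by
    intro p q
    have := hsub p q
    push_cast
    exact this
  have hb : BddBelow (range fun n : ℕ => a n / n) := by
    refine ⟨-|c|, ?_⟩
    rintro _ ⟨n, rfl⟩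
    have h0 : 0 ≤ |c| := abs_nonneg c
    rcases Nat.eq_zero_or_pos n with hn | hn
    · subst hn; simp
    · have hn' : (1 : ℝ) ≤ n := by exact_mod_cast hn
      have h1 := hlow n (by linarith)
      show -|c| ≤ a n / n
      rw [le_div_iff₀ (by linarith)]
      nlinarith
  have hl := hS.tendsto_lim hb
  set l := hS.lim with hldef
  have hlow2 : ∀ T, 0 < T → T * l ≤ a T := by
    intro T hT
    -- `a T ≥ (a ⌈T (j+1)⌉ - C)/(j+1)`
    have hx : Tendsto (fun j : ℕ => (j : ℝ) + 1) atTop atTop :=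
      tendsto_atTop_add_const_right _ _ tendsto_natCast_atTop_atTop
    have h1 : Tendsto (fun j : ℕ => ((⌈T * ((j : ℝ) + 1)⌉₊ : ℕ) : ℝ) / ((j : ℝ) + 1)) atTop
        (𝓝 T) := (tendsto_nat_ceil_mul_div_atTop hT.le).comp hx
    have h2 : Tendsto (fun j : ℕ => ⌈T * ((j : ℝ) + 1)⌉₊) atTop atTop :=
      tendsto_nat_ceil_atTop.comp (hx.const_mul_atTop hT)
    have h3 := hl.comp h2
    have h4 : Tendsto (fun j : ℕ => C / ((j : ℝ) + 1)) atTop (𝓝 0) :=
      tendsto_const_nhds.div_atTop hx
    have h5 := (h3.mul h1).sub h4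
    rw [sub_zero, mul_comm l T] at h5
    refine le_of_tendsto h5 (Eventually.of_forall fun j => ?_)
    have hj1 : (0 : ℝ) < (j : ℝ) + 1 := by
      have : (0 : ℝ) ≤ j := Nat.cast_nonneg j
      linarith
    set n := ⌈T * ((j : ℝ) + 1)⌉₊ with hn
    have hn0 : (0 : ℝ) < n := by
      have : 0 < n := Nat.ceil_pos.2 (mul_pos hT hj1)
      exact_mod_cast this
    have hn1 : T * ((j : ℝ) + 1) ≤ n := Nat.le_ceil _
    have hn2 : (n : ℝ) < T * ((j : ℝ) + 1) + 1 := Nat.ceil_lt_add_one (by positivity)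
    have h6 := hsub (((j : ℝ) + 1) * T) (n - ((j : ℝ) + 1) * T)
    have h7 := hC (n - ((j : ℝ) + 1) * T) (by linarith) (by linarith)
    have h8 := hj j T
    rw [add_sub_cancel] at h6
    simp only [Function.comp]
    have h9 : a n / n * (n / ((j : ℝ) + 1)) - C / ((j : ℝ) + 1) = (a n - C) / ((j : ℝ) + 1) := by
      field_simp
    rw [h9, div_le_iff₀ hj1]
    linarith
  refine ⟨l, ?_, hlow2⟩
  have h1 : Tendsto (fun T : ℝ => ((⌊T⌋₊ : ℕ) : ℝ) / T) atTop (𝓝 1) := tendsto_nat_floor_div_atTop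
  have h2 : Tendsto (fun T : ℝ => a (⌊T⌋₊ : ℕ) / (⌊T⌋₊ : ℕ)) atTop (𝓝 l) :=
    hl.comp tendsto_nat_floor_atTop
  have h3 : Tendsto (fun T : ℝ => C / T) atTop (𝓝 0) := tendsto_const_nhds.div_atTop tendsto_id
  have h4 := (h2.mul h1).add h3
  rw [mul_one, add_zero] at h4
  refine tendsto_of_tendsto_of_tendsto_of_le_of_le' tendsto_const_nhds h4 ?_ ?_
  · filter_upwards [eventually_gt_atTop (0 : ℝ)] with T hT
    rw [le_div_iff₀ hT, mul_comm]
    exact hlow2 T hT
  · filter_upwards [eventually_ge_atTop (1 : ℝ)] with T hT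
    have hn : 0 < ⌊T⌋₊ := Nat.floor_pos.2 hT
    have hn0 : (0 : ℝ) < (⌊T⌋₊ : ℕ) := by exact_mod_cast hn
    have hn1 : ((⌊T⌋₊ : ℕ) : ℝ) ≤ T := Nat.floor_le (by linarith)
    have hn2 : T < (⌊T⌋₊ : ℕ) + 1 := Nat.lt_floor_add_one T
    have h6 := hsub (⌊T⌋₊ : ℕ) (T - (⌊T⌋₊ : ℕ))
    have h7 := hC (T - (⌊T⌋₊ : ℕ)) (by linarith) (by linarith)
    rw [add_sub_cancel] at h6
    have h9 : a (⌊T⌋₊ : ℕ) / (⌊T⌋₊ : ℕ) * ((⌊T⌋₊ : ℕ) / T) + C / T =
        (a (⌊T⌋₊ : ℕ) + C) / T := by
      field_simp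
    rw [h9]
    gcongr
    linarith

/-! ### partial sums and products -/

theorem psum_range {m k : ℕ} (hk : k ≤ m) (g : ℕ → ℝ) :
    psum k (fun i : Fin m => g i) = ∑ i ∈ Finset.range k, g i := by
  unfold psum
  rw [Fin.sum_univ_eq_sum_range (fun i => if i < k then g i else 0) m,
    ← Finset.sum_filter]
  congr 1
  ext i
  simp only [Finset.mem_filter, Finset.mem_range]
  omega

theorem pprod_range {m k : ℕ} (hk : k ≤ m) (g : ℕ → ℝ) :
    pprod k (fun i : Fin m => g i) = ∏ i ∈ Finset.range k, g i := by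
  unfold pprod
  rw [Fin.prod_univ_eq_prod_range (fun i => if i < k then g i else 1) m,
    ← Finset.prod_filter]
  congr 1
  ext i
  simp only [Finset.mem_filter, Finset.mem_range]
  omega

theorem ext_fin {m : ℕ} (e : Fin m → ℝ) : ∃ g : ℕ → ℝ, e = fun i : Fin m => g i :=
  ⟨fun n => if h : n < m then e ⟨n, h⟩ else 0, by
    funext i
    simp⟩

/-- the logarithms of the products `topV k G`: concavity and a lower bound -/
theorem log_topV (h7 : EigStmt) {m : ℕ} {G : Mt m} (hs : Gᵀ = G)
    (hp : ∀ x, 0 ≤ x ⬝ᵥ (G *ᵥ x)) (hpos : ∀ k ≤ m, 0 < topV k G) :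
    topV 0 G = 1 ∧ (∀ k, k + 2 ≤ m → Real.log (topV (k + 2) G) + Real.log (topV k G) ≤
      2 * Real.log (topV (k + 1) G)) ∧
    ∀ k ≤ m, min 0 (Real.log (topV m G)) ≤ Real.log (topV k G) := by
  obtain ⟨e, he, -, -, -, -, hV⟩ := h7 m G hs
  obtain ⟨g, rfl⟩ := ext_fin e
  have hV' : ∀ k ≤ m, topV k G = ∏ i ∈ Finset.range k, g i := fun k hk => by
    rw [hV hp k hk, pprod_range hk]
  have hg : ∀ i < m, 0 < g i := by
    intro i hi
    have h1 := hpos i hi.le
    have h2 := hpos (i + 1) hi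
    rw [hV' i hi.le] at h1
    rw [hV' (i + 1) hi, Finset.prod_range_succ] at h2
    exact (pos_iff_pos_of_mul_pos h2).1 h1
  have hga : ∀ i j, i ≤ j → j < m → g j ≤ g i := fun i j hij hj =>
    he (a := ⟨i, lt_of_le_of_lt hij hj⟩) (b := ⟨j, hj⟩) hij
  have hl : ∀ k ≤ m, Real.log (topV k G) = ∑ i ∈ Finset.range k, Real.log (g i) := by
    intro k hk
    rw [hV' k hk, Real.log_prod]
    intro i hi
    exact (hg i (lt_of_lt_of_le (Finset.mem_range.1 hi) hk)).ne'
  refine ⟨by rw [hV' 0 (Nat.zero_le _)]; simp, ?_, ?_⟩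
  · intro k hk
    rw [hl _ hk, hl _ (by omega), hl _ (by omega), Finset.sum_range_succ, Finset.sum_range_succ]
    have := Real.log_le_log (hg (k + 1) (by omega)) (hga k (k + 1) (by omega) (by omega))
    linarith
  · intro k hk
    rw [hl k hk, hl m le_rfl]
    by_cases hkm : k = m
    · subst hkm; exact min_le_right _ _
    have hkm' : k < m := lt_of_le_of_ne hk hkm
    by_cases h0 : 0 ≤ Real.log (g k)
    · refine (min_le_left _ _).trans (Finset.sum_nonneg fun i hi => ?_)
      have hi' := Finset.mem_range.1 hi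
      exact h0.trans (Real.log_le_log (hg k hkm') (hga i k hi'.le hkm'))
    · push Not at h0
      refine (min_le_right _ _).trans ?_
      rw [← Finset.sum_range_add_sum_Ico _ hk]
      have : ∑ i ∈ Finset.Ico k m, Real.log (g i) ≤ 0 := by
        refine Finset.sum_nonpos fun i hi => ?_
        obtain ⟨h1, h2⟩ := Finset.mem_Ico.1 hi
        exact (Real.log_le_log (hg i h2) (hga k i h1 h2)).trans h0.le
      linarith

/-! ### the system -/

section

variable {m : ℕ} {X : Type} [TopologicalSpace X]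

theorem loS (D : Sys m X) (f : X) (x : Fin m → ℝ) :
    (2 * D.a) * (x ⬝ᵥ x) ≤ x ⬝ᵥ (D.S f *ᵥ x) := by
  have h1 := D.loU f x
  have h2 := D.loV f x
  have : D.S f *ᵥ x = D.U f *ᵥ x + D.V f *ᵥ x := by rw [Sys.S, Matrix.add_mulVec]
  rw [this, dotProduct_add]
  linarith

theorem symS (D : Sys m X) (f : X) : (D.S f)ᵀ = D.S f := by
  rw [Sys.S, transpose_add, D.sU, D.sV]

theorem contS (D : Sys m X) : Continuous D.S := D.cU.add D.cV

theorem detS (h7 : EigStmt) (D : Sys m X) (f : X) : 0 < (D.S f).det := by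
  obtain ⟨e, -, hd, -, hlow, -, -⟩ := h7 m (D.S f) (symS D f)
  rw [hd]
  exact Finset.prod_pos fun i _ =>
    lt_of_lt_of_le (by have := D.a_pos; positivity) (hlow (2 * D.a) (loS D f) i)

theorem contInv (h7 : EigStmt) (D : Sys m X) : Continuous fun f => (D.S f)⁻¹ := by
  have e : (fun f => (D.S f)⁻¹) = fun f => ((D.S f).det)⁻¹ • (D.S f).adjugate := by
    funext f
    rw [Matrix.inv_def, Ring.inverse_eq_inv']
  rw [e]
  exact ((contS D).matrix_det.inv₀ fun f => (detS h7 D f).ne').smul (contS D).matrix_adjugate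

theorem contA (h7 : EigStmt) (D : Sys m X) {Y Z : ℝ → X → Mt m} {B B' : X → Mt m}
    (hY : Fund D B Y) (hZ : Fund D B' Z) (T : ℝ) : Continuous fun f => D.A Y Z T f := by
  have h1 : Continuous fun f => Y T f := hY.cont.comp (by fun_prop : Continuous fun f => (T, f))
  have h2 : Continuous fun f => Z T f := hZ.cont.comp (by fun_prop : Continuous fun f => (T, f))
  exact (h1.sub h2).matrix_mul (contInv h7 D)

theorem sg_m (S : Mt m) : sg m S = S.trace := by
  unfold sg
  have : {x | ∃ W : Matrix (Fin m) (Fin m) ℝ, Wᵀ * W = 1 ∧ x = (Wᵀ * S * W).trace} =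
      {S.trace} := by
    ext x
    simp only [Set.mem_ofPred_eq, mem_singleton_iff]
    constructor
    · rintro ⟨W, hW, rfl⟩
      have hW' : W * Wᵀ = 1 := mul_eq_one_comm.1 hW
      rw [Matrix.mul_assoc, Matrix.trace_mul_comm, Matrix.mul_assoc, hW', Matrix.mul_one]
    · rintro rfl
      exact ⟨1, by simp, by simp⟩
  rw [this, csSup_singleton]

/-- `sg (k) S + 2 a ≤ tr S` for `k + 1 = m` -/
theorem sg_pred (h7 : EigStmt) (D : Sys m X) (f : X) {k : ℕ} (hk : k + 1 = m) :
    sg k (D.S f) + 2 * D.a ≤ (D.S f).trace := by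
  obtain ⟨e, -, -, -, hlow, hsg, -⟩ := h7 m (D.S f) (symS D f)
  obtain ⟨g, rfl⟩ := ext_fin e
  have h1 := hsg k (by omega)
  have h2 := hsg m le_rfl
  rw [psum_range (by omega)] at h1 h2
  rw [sg_m] at h2
  have h3 : ∑ i ∈ Finset.range m, g i = ∑ i ∈ Finset.range k, g i + g k := by
    rw [← Finset.sum_range_succ, hk]
  rw [h2, h1, h3]
  have := hlow (2 * D.a) (loS D f) ⟨k, by omega⟩
  simp only at this
  linarith

variable [CompactSpace X] [MeasurableSpace X] [BorelSpace X]

theorem integ (μ : Measure X) [IsFiniteMeasure μ] {g : X → ℝ} (hg : Continuous g) :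
    Integrable g μ := by
  obtain ⟨C, hC⟩ := isCompact_univ.exists_bound_of_continuousOn hg.continuousOn
  exact Integrable.of_bound hg.aestronglyMeasurable C (ae_of_all _ fun x => hC x (mem_univ x))

omit [CompactSpace X] in
theorem integral_flow {μ : Measure X} {D : Sys m X}
    (hμ : ∀ t, MeasurePreserving (D.Φ t) μ μ) (t : ℝ) {g : X → ℝ} (hg : Continuous g) :
    ∫ f, g (D.Φ t f) ∂μ = ∫ f, g f ∂μ := by
  have h := integral_map (μ := μ) (hμ t).measurable.aemeasurable
    (f := g) (by rw [(hμ t).map_eq]; exact hg.aestronglyMeasurable)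
  rw [← h, (hμ t).map_eq]

theorem integral_time {μ : Measure X} [IsProbabilityMeasure μ] {D : Sys m X}
    (hμ : ∀ t, MeasurePreserving (D.Φ t) μ μ) {T : ℝ} (hT : 0 ≤ T) {g : X → ℝ}
    (hg : Continuous g) :
    ∫ f, (∫ s in (0 : ℝ)..T, g (D.Φ s f)) ∂μ = T * ∫ f, g f ∂μ := by
  simp only [intervalIntegral.integral_of_le hT]
  have hc : Continuous (Function.uncurry fun (f : X) (s : ℝ) => g (D.Φ s f)) :=
    hg.comp (D.cont.comp continuous_swap)
  obtain ⟨C, hC⟩ := isCompact_univ.exists_bound_of_continuousOn hg.continuousOn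
  have hi : Integrable (Function.uncurry fun (f : X) (s : ℝ) => g (D.Φ s f))
      (μ.prod (volume.restrict (Ioc 0 T))) :=
    Integrable.of_bound hc.aestronglyMeasurable C
      (ae_of_all _ fun x => hC _ (mem_univ _))
  rw [integral_integral_swap hi]
  simp only [integral_flow hμ _ hg, integral_const, measureReal_restrict_apply_univ,
    Real.volume_real_Ioc_of_le hT, sub_zero, smul_eq_mul]

end

/-! ### the row -/

/-- **R15** -/
theorem lyap (h5 : CompStmt) (h6 : NStmt) (h7 : EigStmt) (h8 : KyStmt) (h9 : UpStmt) :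
    LyapStmt := by
  intro m X _ _ _ _ μ _ D Y Z hμ hY hZ
  obtain ⟨C, T₀, hC0, hcomp⟩ := h5 m X D Y Z hY hZ
  -- the functions `N`
  have hN := fun k hk => h6 m X D Y hY k hk
  have hNpos : ∀ k ≤ m, ∀ T f, 0 < D.N Y k T f := fun k hk => (hN k hk).2.1
  have hNc : ∀ k ≤ m, ∀ T, Continuous fun f => Real.log (D.N Y k T f) := fun k hk T =>
    ((hN k hk).2.2.1 T).log fun f => (hNpos k hk T f).ne'
  set a : ℕ → ℝ → ℝ := fun k T => ∫ f, Real.log (D.N Y k T f) ∂μ with ha
  have hsub : ∀ k ≤ m, ∀ s t, a k (s + t) ≤ a k s + a k t := by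
    intro k hk s t
    have e1 : a k s = ∫ f, Real.log (D.N Y k s (D.Φ t f)) ∂μ :=
      (integral_flow hμ t (hNc k hk s)).symm
    have hct : Continuous (D.Φ t) := D.cont.comp (by fun_prop : Continuous fun f => (t, f))
    have e2 : a k s + a k t =
        ∫ f, (Real.log (D.N Y k s (D.Φ t f)) + Real.log (D.N Y k t f)) ∂μ := by
      rw [e1]
      exact (integral_add (integ μ ((hNc k hk s).comp hct)) (integ μ (hNc k hk t))).symm
    rw [e2]
    refine integral_mono (integ μ (hNc k hk _)) ((integ μ ((hNc k hk s).comp hct)).add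
      (integ μ (hNc k hk t))) fun f => ?_
    have h1 := (hN k hk).2.2.2.1 s t f
    have h2 := Real.log_le_log (hNpos k hk _ f) h1
    rwa [Real.log_mul (hNpos k hk _ _).ne' (hNpos k hk _ _).ne'] at h2
  -- upper bounds on `[0, 1]`
  have hup : ∀ k ≤ m, ∃ B : ℝ, ∀ r, 0 ≤ r → r ≤ 1 → a k r ≤ B := by
    intro k hk
    have hsgc : Continuous fun f => sg k (D.S f) := (h8 m k hk).1.comp (contS D)
    obtain ⟨B, hB⟩ := isCompact_univ.exists_bound_of_continuousOn hsgc.continuousOn
    refine ⟨|B|, fun r hr0 hr1 => ?_⟩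
    have hpt : ∀ f, Real.log (D.N Y k r f) ≤ |B| := by
      intro f
      have h1 := h9 m X D Y hY k hk r hr0 f
      have h2 := Real.log_le_log (hNpos k hk r f) h1
      rw [Real.log_exp] at h2
      refine h2.trans ?_
      have h3 : ‖∫ s in (0 : ℝ)..r, sg k (D.S (D.Φ s f))‖ ≤ |B| * |r - 0| :=
        intervalIntegral.norm_integral_le_of_norm_le_const fun s _ =>
          (hB _ (mem_univ _)).trans (le_abs_self B)
      rw [sub_zero, abs_of_nonneg hr0] at h3
      have h4 := (le_abs_self _).trans h3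
      have h5 : 0 ≤ |B| := abs_nonneg B
      nlinarith
    calc a k r ≤ ∫ _f, |B| ∂μ := integral_mono (integ μ (hNc k hk r)) (integrable_const _) hpt
      _ = |B| := by simp
  -- the matrices `Aᵀ A`
  set G : ℝ → X → Mt m := fun T f => (D.A Y Z T f)ᵀ * D.A Y Z T f with hG
  have hGs : ∀ T f, (G T f)ᵀ = G T f := by
    intro T f
    simp only [hG, transpose_mul, transpose_transpose]
  have hGp : ∀ T f x, 0 ≤ x ⬝ᵥ (G T f *ᵥ x) := by
    intro T f x
    simp only [hG]
    rw [← Matrix.mulVec_mulVec, Matrix.dotProduct_mulVec, Matrix.vecMul_transpose]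
    exact Finset.sum_nonneg fun i _ => mul_self_nonneg _
  have hVpos : ∀ T, T₀ ≤ T → ∀ f, ∀ k ≤ m, 0 < topV k (G T f) := fun T hT f k hk =>
    lt_of_lt_of_le (mul_pos (inv_pos.2 hC0) (hNpos k hk T f)) (hcomp T hT f k hk).2.1
  have hVc : ∀ T, T₀ ≤ T → ∀ k ≤ m, Continuous fun f => Real.log (topV k (G T f)) := by
    intro T hT k hk
    have hA := contA h7 D hY hZ T
    exact ((h8 m k hk).2.1.comp (hA.matrix_transpose.matrix_mul hA)).log
      fun f => (hVpos T hT f k hk).ne'
  set F : ℕ → ℝ → ℝ := fun k T => ∫ f, Real.log (topV k (G T f)) ∂μ with hF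
  have hFa : ∀ k ≤ m, ∀ T, T₀ ≤ T → |F k T - a k T| ≤ |Real.log C| := by
    intro k hk T hT
    rw [← integral_sub (integ μ (hVc T hT k hk)) (integ μ (hNc k hk T)), ← Real.norm_eq_abs]
    refine (norm_integral_le_of_norm_le_const (ae_of_all _ fun f => ?_)).trans
      (by simp : |Real.log C| * μ.real univ ≤ |Real.log C|)
    obtain ⟨-, h1, h2⟩ := hcomp T hT f k hk
    have p1 := hNpos k hk T f
    have p2 := hVpos T hT f k hk
    have l1 := Real.log_le_log (mul_pos (inv_pos.2 hC0) p1) h1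
    have l2 := Real.log_le_log p2 h2
    rw [Real.log_mul (inv_pos.2 hC0).ne' p1.ne', Real.log_inv] at l1
    rw [Real.log_mul hC0.ne' p1.ne'] at l2
    rw [Real.norm_eq_abs, abs_le]
    have := le_abs_self (Real.log C)
    constructor <;> linarith
  -- lower bounds
  have hlow : ∀ k ≤ m, ∀ T, max T₀ 0 ≤ T → -(2 * |Real.log C|) ≤ a k T := by
    intro k hk T hT
    have hT0 : T₀ ≤ T := (le_max_left _ _).trans hT
    have hT1 : 0 ≤ T := (le_max_right _ _).trans hT
    have h1 : ∀ f, -|Real.log C| ≤ Real.log (topV k (G T f)) := by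
      intro f
      have h2 := (log_topV h7 (hGs T f) (hGp T f) (hVpos T hT0 f)).2.2 k hk
      refine le_trans (le_min (neg_nonpos.2 (abs_nonneg _)) ?_) h2
      obtain ⟨-, h3, -⟩ := hcomp T hT0 f m le_rfl
      have h4 := Real.log_le_log (mul_pos (inv_pos.2 hC0) (hNpos m le_rfl T f)) h3
      rw [Real.log_mul (inv_pos.2 hC0).ne' (hNpos m le_rfl T f).ne', Real.log_inv,
        (hN m le_rfl).2.2.2.2 T f, Real.log_exp] at h4
      have h5 : 0 ≤ ∫ s in (0 : ℝ)..T, (D.S (D.Φ s f)).trace := by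
        refine intervalIntegral.integral_nonneg hT1 fun s _ => ?_
        obtain ⟨e, -, -, -, hlo, hsg, -⟩ := h7 m (D.S (D.Φ s f)) (symS D _)
        rw [← sg_m, hsg m le_rfl, psum]
        refine Finset.sum_nonneg fun i _ => ?_
        have h6 := hlo (2 * D.a) (loS D _) i
        have := D.a_pos
        split_ifs
        · linarith
        · exact le_rfl
      have := le_abs_self (Real.log C)
      linarith
    have h2 : -|Real.log C| ≤ F k T := by
      calc -|Real.log C| = ∫ _f, -|Real.log C| ∂μ := by simp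
        _ ≤ F k T := integral_mono (integrable_const _) (integ μ (hVc T hT0 k hk)) h1
    have h3 := hFa k hk T hT0
    rw [abs_le] at h3
    linarith [h3.2]
  -- the limits
  have hlim : ∀ k, ∃ l : ℝ, k ≤ m → Tendsto (fun T : ℝ => a k T / T) atTop (𝓝 l) ∧
      ∀ T, 0 < T → T * l ≤ a k T := by
    intro k
    by_cases hk : k ≤ m
    · obtain ⟨B, hB⟩ := hup k hk
      obtain ⟨l, h1, h2⟩ := fekete (hsub k hk) hB (hlow k hk)
      exact ⟨l, fun _ => ⟨h1, h2⟩⟩
    · exact ⟨0, fun h => absurd h hk⟩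
  choose l hl using hlim
  have hlF : ∀ k ≤ m, Tendsto (fun T : ℝ => F k T / T) atTop (𝓝 (l k)) := by
    intro k hk
    have h1 : Tendsto (fun T : ℝ => (F k T - a k T) / T) atTop (𝓝 0) := by
      have h2 : Tendsto (fun T : ℝ => |Real.log C| / T) atTop (𝓝 0) :=
        tendsto_const_nhds.div_atTop tendsto_id
      refine squeeze_zero_norm' ?_ h2
      filter_upwards [eventually_ge_atTop T₀, eventually_gt_atTop (0 : ℝ)] with T hT hT0
      rw [norm_div, Real.norm_eq_abs, Real.norm_eq_abs, abs_of_pos hT0]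
      exact div_le_div_of_nonneg_right (hFa k hk T hT) hT0.le
    have h2 := h1.add (hl k hk).1
    rw [zero_add] at h2
    refine h2.congr fun T => ?_
    ring
  have hl0 : l 0 = 0 := by
    have h1 : Tendsto (fun T : ℝ => a 0 T / T) atTop (𝓝 0) := by
      have : ∀ T, a 0 T = 0 := by
        intro T
        have : ∀ f, D.N Y 0 T f = 1 := by
          intro f
          obtain ⟨W, -, hW, -⟩ := (hN 0 (Nat.zero_le _)).1 T f
          rw [hW, Matrix.det_fin_zero]
        simp [ha, this]
      simp [this]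
    exact tendsto_nhds_unique (hl 0 (Nat.zero_le _)).1 h1
  have hconc : ∀ k, k + 2 ≤ m → l (k + 2) + l k ≤ 2 * l (k + 1) := by
    intro k hk
    have h1 := (hlF (k + 2) hk).add (hlF k (by omega))
    have h2 := (hlF (k + 1) (by omega)).const_mul 2
    refine le_of_tendsto_of_tendsto h1 h2 ?_
    filter_upwards [eventually_ge_atTop T₀, eventually_gt_atTop (0 : ℝ)] with T hT hT0
    have h3 : F (k + 2) T + F k T ≤ 2 * F (k + 1) T := by
      simp only [hF]
      rw [← integral_add (integ μ (hVc T hT _ hk)) (integ μ (hVc T hT _ (by omega))),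
        ← integral_const_mul]
      refine integral_mono ((integ μ (hVc T hT _ hk)).add (integ μ (hVc T hT _ (by omega))))
        ((integ μ (hVc T hT _ (by omega))).const_mul 2) fun f => ?_
      exact (log_topV h7 (hGs T f) (hGp T f) (hVpos T hT f)).2.1 k hk
    rw [← add_div, mul_div_assoc']
    gcongr
  have hlast : ∀ k, k + 1 = m → l k + 2 * D.a ≤ l m := by
    intro k hk
    have h1 := (hl k (by omega)).1.add_const (2 * D.a)
    refine le_of_tendsto_of_tendsto h1 (hl m le_rfl).1 ?_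
    filter_upwards [eventually_gt_atTop (0 : ℝ)] with T hT0
    have h3 : a k T + 2 * D.a * T ≤ a m T := by
      have e : a k T + 2 * D.a * T = ∫ f, (Real.log (D.N Y k T f) + 2 * D.a * T) ∂μ := by
        rw [integral_add (integ μ (hNc k (by omega) T)) (integrable_const _)]
        simp [ha]
      rw [e]
      refine integral_mono ((integ μ (hNc k (by omega) T)).add (integrable_const _))
        (integ μ (hNc m le_rfl T)) fun f => ?_
      have h4 := Real.log_le_log (hNpos k (by omega) T f)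
        (h9 m X D Y hY k (by omega) T hT0.le f)
      rw [Real.log_exp] at h4
      show Real.log (D.N Y k T f) + 2 * D.a * T ≤ Real.log (D.N Y m T f)
      rw [(hN m le_rfl).2.2.2.2 T f, Real.log_exp]
      have hsc : Continuous fun s => D.S (D.Φ s f) :=
        (contS D).comp (D.cont.comp (by fun_prop : Continuous fun s : ℝ => (s, f)))
      have hc1 : Continuous fun s => sg k (D.S (D.Φ s f)) := (h8 m k (by omega)).1.comp hsc
      have hc2 : Continuous fun s => (D.S (D.Φ s f)).trace := hsc.matrix_trace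
      have h5 : ∫ s in (0 : ℝ)..T, (sg k (D.S (D.Φ s f)) + 2 * D.a) ≤
          ∫ s in (0 : ℝ)..T, (D.S (D.Φ s f)).trace :=
        intervalIntegral.integral_mono_on hT0.le
          ((hc1.add continuous_const).intervalIntegrable _ _) (hc2.intervalIntegrable _ _)
          fun s _ => sg_pred h7 D _ hk
      rw [intervalIntegral.integral_add (hc1.intervalIntegrable _ _)
        (continuous_const.intervalIntegrable _ _), intervalIntegral.integral_const] at h5
      simp only [sub_zero, smul_eq_mul] at h5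
      linarith
    rw [← sub_nonneg]
    have : a m T / T - (a k T / T + 2 * D.a) = (a m T - (a k T + 2 * D.a * T)) / T := by
      field_simp
    rw [this]
    exact div_nonneg (by linarith) hT0.le
  -- differences decrease
  have hdec : ∀ j, ∀ i, i + 1 + j ≤ m → i + 1 ≤ m →
      l (i + j + 1) - l (i + j) ≤ l (i + 1) - l i := by
    intro j
    induction j with
    | zero => intro i _ _; simp
    | succ j ih =>
      intro i h1 h2
      have h3 := ih i (by omega) h2
      have h4 := hconc (i + j) (by omega)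
      have e1 : i + (j + 1) + 1 = i + j + 2 := by ring
      have e2 : i + (j + 1) = i + j + 1 := by ring
      rw [e1, e2]
      linarith
  set χ : Fin m → ℝ := fun i => (l (i + 1) - l i) / 2 with hχ
  have hps : ∀ k ≤ m, psum k χ = l k / 2 := by
    intro k hk
    have : χ = fun i : Fin m => (fun n : ℕ => (l (n + 1) - l n) / 2) i := rfl
    rw [this, psum_range hk (fun n : ℕ => (l (n + 1) - l n) / 2), ← Finset.sum_div,
      Finset.sum_range_sub, hl0, sub_zero]
  refine ⟨χ, ?_, ?_, ?_, ?_, ?_, ?_⟩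
  · intro i j hij
    have hij' : (i : ℕ) ≤ j := hij
    have h1 := hdec ((j : ℕ) - i) i (by have := j.2; omega) i.2
    have e : (i : ℕ) + ((j : ℕ) - i) = j := by omega
    rw [e] at h1
    simp only [hχ]
    linarith
  · intro i
    have h1 := hdec (m - 1 - i) i (by have := i.2; omega) i.2
    have e : (i : ℕ) + (m - 1 - i) + 1 = m := by have := i.2; omega
    have h2 := hlast ((i : ℕ) + (m - 1 - i)) e
    rw [e] at h1
    simp only [hχ]
    linarith
  · intro k hk
    rw [hps k hk]
    have h1 := (hlF k hk).div_const 2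
    refine h1.congr fun T => ?_
    simp only [hF]
    rw [div_div, mul_comm T 2]
  · intro k hk T hT
    rw [hps k hk]
    have := (hl k hk).2 T hT
    simp only [ha] at this
    linarith
  · intro k hk
    rw [hps k hk]
    have h1 := (hl k hk).1.div_const 2
    refine h1.congr fun T => ?_
    simp only [ha]
    rw [div_div, mul_comm T 2]
  · have h1 := hps m le_rfl
    have h2 : psum m χ = ∑ i, χ i := by
      unfold psum
      refine Finset.sum_congr rfl fun i _ => ?_
      rw [if_pos i.2]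
    have h3 : ∀ T : ℝ, 0 < T → a m T / T = ∫ f, (D.S f).trace ∂μ := by
      intro T hT
      have e1 : a m T = T * ∫ f, (D.S f).trace ∂μ := by
        rw [← integral_time hμ hT.le (contS D).matrix_trace]
        simp only [ha]
        refine integral_congr_ae (ae_of_all _ fun f => ?_)
        show Real.log (D.N Y m T f) = _
        rw [(hN m le_rfl).2.2.2.2 T f, Real.log_exp]
      rw [e1]
      field_simp
    have h4 : l m = ∫ f, (D.S f).trace ∂μ := by
      refine tendsto_nhds_unique (hl m le_rfl).1 ?_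
      refine tendsto_const_nhds.congr' ?_
      filter_upwards [eventually_gt_atTop (0 : ℝ)] with T hT
      exact (h3 T hT).symm
    rw [← h2, h1, ← h4]
    ring

end Vale.Agent.P207.SPH.H128
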